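import Vale.Agent.P022.H964.Lat

/-!
P022, row GEN6 (theta version): limits at the cusp of the theta series of x² + x y + y² and x² + y².
-/

open UpperHalfPlane hiding I
open Filter Topology Complex
open scoped MatrixGroups ModularForm Manifold Real

noncomputable section

namespace Vale.Agent.P022.H888.Gen

open Vale.Agent.P022 Vale.Agent.P022.H964

/-- the constant term of a series at `i∞` -/
theorem lim_gen {α : Type*} {a : α → ℂ} {q : α → ℝ} (h : Good a q) :
    Tendsto (fun τ : ℍ => ser a q τ) atImInfty (𝓝 (∑' v, if q v = 0 then a v else 0)) := by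
  unfold ser
  refine tendsto_tsum_of_dominated_convergence
    (bound := fun v => ‖a v‖ * Real.exp (-(2 * π * 1 * q v))) (h.sum 1 one_pos) ?_ ?_
  · intro v
    by_cases hv : q v = 0
    · simp only [hv, if_true]
      have : (fun n : ℍ => a v * cexp (2 * π * I * (n : ℂ) * ((0 : ℝ) : ℂ))) = fun _ => a v := by
        funext n
        simp
      rw [this]
      exact tendsto_const_nhds
    · simp only [hv, if_false]
      have hpos : 0 < q v := lt_of_le_of_ne (h.nonneg v) (Ne.symm hv)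
      rw [tendsto_zero_iff_norm_tendsto_zero]
      have h1 : ∀ n : ℍ, ‖a v * cexp (2 * π * I * (n : ℂ) * (q v : ℂ))‖
          = ‖a v‖ * Real.exp (-(2 * π * q v * n.im)) := by
        intro n
        rw [norm_mul, H964.norm_exp]
        congr 2
        rw [UpperHalfPlane.coe_im]
        ring
      simp_rw [h1]
      rw [show (0 : ℝ) = ‖a v‖ * 0 by ring]
      refine Tendsto.const_mul _ ?_
      refine Real.tendsto_exp_atBot.comp ?_
      refine tendsto_neg_atTop_atBot.comp ?_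
      refine Tendsto.const_mul_atTop (by positivity) ?_
      exact tendsto_comap
  · have : ∀ᶠ τ : ℍ in atImInfty, 1 ≤ τ.im := by
      have h2 := (tendsto_comap (f := UpperHalfPlane.im) (x := atTop)).eventually (eventually_ge_atTop (1 : ℝ))
      exact h2
    filter_upwards [this] with τ hτ v
    exact norm_term_le h (by simpa using hτ) v

/-- the form takes values at least `1` off zero -/
theorem Q3_pos {v : ℤ × ℤ} (hv : v ≠ 0) : 1 ≤ Qf 1 1 1 v := by
  obtain ⟨x, y⟩ := v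
  simp only [Qf]
  by_contra hcon
  have h1 : 1 * x ^ 2 + 1 * x * y + 1 * y ^ 2 ≤ 0 := by omega
  have hx : x = 0 := by
    have : 4 * (x ^ 2 + x * y + y ^ 2) = (x + 2 * y) ^ 2 + 3 * x ^ 2 := by ring
    have h3 : x ^ 2 ≤ 0 := by nlinarith [sq_nonneg (x + 2 * y)]
    exact pow_eq_zero_iff (two_ne_zero) |>.1 (le_antisymm h3 (sq_nonneg x))
  have hy : y = 0 := by
    subst hx
    have h3 : y ^ 2 ≤ 0 := by nlinarith
    exact pow_eq_zero_iff (two_ne_zero) |>.1 (le_antisymm h3 (sq_nonneg y))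
  exact hv (by rw [hx, hy]; rfl)

theorem Q4_pos {v : ℤ × ℤ} (hv : v ≠ 0) : 1 ≤ Qf 1 0 1 v := by
  obtain ⟨x, y⟩ := v
  simp only [Qf]
  by_contra hcon
  have h1 : 1 * x ^ 2 + 0 * x * y + 1 * y ^ 2 ≤ 0 := by omega
  have hx : x = 0 := by
    have h3 : x ^ 2 ≤ 0 := by nlinarith [sq_nonneg y]
    exact pow_eq_zero_iff (two_ne_zero) |>.1 (le_antisymm h3 (sq_nonneg x))
  have hy : y = 0 := by
    have h3 : y ^ 2 ≤ 0 := by nlinarith [sq_nonneg x]
    exact pow_eq_zero_iff (two_ne_zero) |>.1 (le_antisymm h3 (sq_nonneg y))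
  exact hv (by rw [hx, hy]; rfl)

/-- the six units -/
def U6 : Finset (ℤ × ℤ) := {(1, 0), (-1, 0), (0, 1), (0, -1), (1, -1), (-1, 1)}

theorem mem_U6 {v : ℤ × ℤ} (h : Qf 1 1 1 v = 1) : v ∈ U6 := by
  obtain ⟨x, y⟩ := v
  simp only [Qf] at h
  have hx : x ^ 2 ≤ 1 := by nlinarith [sq_nonneg (x + 2 * y)]
  have hy : y ^ 2 ≤ 1 := by nlinarith [sq_nonneg (y + 2 * x)]
  have hx1 : x ≤ 1 := by nlinarith
  have hx2 : -1 ≤ x := by nlinarith
  have hy1 : y ≤ 1 := by nlinarith
  have hy2 : -1 ≤ y := by nlinarith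
  interval_cases x <;> interval_cases y <;> simp_all [U6]

/-- constant term -/
theorem lim0 {a b c : ℤ} {D : ℕ} (ha : 0 < a) (hD : 0 < D) (h : b ^ 2 - 4 * a * c = -(D : ℤ))
    (hQ : ∀ v : ℤ × ℤ, v ≠ 0 → 1 ≤ Qf a b c v) {ρ : ℚ} (hρ : 0 < ρ) {m : ℕ} (hm : 0 < m)
    {f : ℤ × ℤ → ℂ} (hf : Per m f) :
    Tendsto (Th a b c D 0 ρ f) atImInfty (𝓝 (f 0)) := by
  obtain ⟨B, hB0, hB⟩ := per_bounded hm hf
  have hg := good ha hD h 0 hρ hB0 hB
  have h1 := lim_gen hg
  rw [Th_eq]
  have h2 : (∑' v : ℤ × ℤ, if (ρ : ℝ) * Qf a b c v = 0 then f v * ev a b D v ^ 0 else 0) = f 0 := by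
    rw [tsum_eq_single (0 : ℤ × ℤ)]
    · simp [Qf]
    · intro v hv
      rw [if_neg]
      have h3 : (1 : ℝ) ≤ Qf a b c v := by exact_mod_cast hQ v hv
      have h4 : (0 : ℝ) < ρ := by exact_mod_cast hρ
      positivity
  rw [h2] at h1
  exact h1

/-- the first coefficient -/
theorem lim1 {ρ : ℚ} (hρ : 0 < ρ) {m : ℕ} (hm : 0 < m)
    {f : ℤ × ℤ → ℂ} (hf : Per m f) :
    Tendsto (fun τ : ℍ => (Th 1 1 1 3 0 ρ f τ - f 0) * cexp (-(2 * π * I * (ρ : ℂ) * τ))) atImInfty
      (𝓝 (∑ u ∈ U6, f u)) := by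
  obtain ⟨B, hB0, hB⟩ := per_bounded hm hf
  have hg := good (a := 1) (b := 1) (c := 1) (D := 3) one_pos (by norm_num) (by norm_num) 0 hρ hB0 hB
  have hρ' : (0 : ℝ) < ρ := by exact_mod_cast hρ
  let a' : ℤ × ℤ → ℂ := fun v => if v = 0 then 0 else f v
  let q' : ℤ × ℤ → ℝ := fun v => if v = 0 then 0 else (ρ : ℝ) * (Qf 1 1 1 v - 1)
  have hg' : Good a' q' := by
    refine ⟨?_, ?_⟩
    · intro v
      by_cases hv : v = 0
      · simp [q', hv]
      · have h3 : (1 : ℝ) ≤ Qf 1 1 1 v := by exact_mod_cast Q3_pos hv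
        simp only [q', hv, if_false]
        exact mul_nonneg hρ'.le (by linarith)
    · intro A hA
      have h4 := (hg.sum A hA).mul_right (Real.exp (2 * π * A * ρ))
      refine Summable.of_nonneg_of_le (fun v => by positivity) (fun v => ?_) h4
      by_cases hv : v = 0
      · simp only [a', hv, if_true, norm_zero, zero_mul]
        positivity
      · simp only [a', q', hv, if_false, pow_zero, mul_one]
        rw [mul_assoc (‖f v‖), ← Real.exp_add]
        apply le_of_eq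
        congr 2
        ring
  have h1 := lim_gen hg'
  have h2 : (∑' v : ℤ × ℤ, if q' v = 0 then a' v else 0) = ∑ u ∈ U6, f u := by
    rw [tsum_eq_sum (s := U6)]
    · refine Finset.sum_congr rfl fun u hu => ?_
      have hu0 : u ≠ 0 ∧ Qf 1 1 1 u = 1 := by
        simp only [U6, Finset.mem_insert, Finset.mem_singleton] at hu
        rcases hu with h | h | h | h | h | h <;> subst h <;> refine ⟨by decide, by decide⟩
      simp [q', a', hu0.1, hu0.2]
    · intro v hv
      by_cases hv0 : v = 0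
      · simp [a', hv0]
      · rw [if_neg]
        simp only [q', hv0, if_false]
        have h5 : Qf 1 1 1 v ≠ 1 := fun h => hv (mem_U6 h)
        have h6 : (Qf 1 1 1 v : ℝ) - 1 ≠ 0 := by
          rw [sub_ne_zero]
          exact_mod_cast h5
        exact mul_ne_zero hρ'.ne' h6
  rw [h2] at h1
  refine h1.congr fun τ => ?_
  have hτ : 0 < (τ : ℂ).im := τ.im_pos
  have hs := summable_term hg hτ
  have h7 : Th 1 1 1 3 0 ρ f τ = ∑' v : ℤ × ℤ, f v * ev 1 1 3 v ^ 0 *
      cexp (2 * π * I * τ * (((ρ : ℝ) * (Qf 1 1 1 v : ℝ) : ℝ) : ℂ)) := by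
    have := congrFun (Th_eq 1 1 1 3 0 ρ f) τ
    exact this
  rw [h7, hs.tsum_eq_add_tsum_ite 0]
  have h8 : f 0 * ev 1 1 3 0 ^ 0 * cexp (2 * π * I * τ * (((ρ : ℝ) * (Qf 1 1 1 0 : ℝ) : ℝ) : ℂ)) = f 0 := by
    simp [Qf]
  rw [h8, add_sub_cancel_left, ← tsum_mul_right]
  unfold ser
  refine tsum_congr fun v => ?_
  by_cases hv : v = 0
  · simp [a', hv]
  · simp only [a', q', hv, if_false, pow_zero, mul_one]
    rw [mul_assoc (f v), ← Complex.exp_add]
    congr 2
    push_cast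
    ring

end Vale.Agent.P022.H888.Gen
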