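import Mathlib

/-!
P022, chapter G, rows ROOT and CHAR: a holomorphic function on the upper half plane all of whose
orders are divisible by N is an N-th power, and the root of a modular form transforms by a
character.
-/

open Complex Set Metric Filter Topology UpperHalfPlane
open scoped MatrixGroups Manifold ModularForm

namespace Vale.Agent.P022.H888

/-- Take one zero out. -/
theorem take_zero {U : Set ℂ} {F : ℂ → ℂ} (hF : AnalyticOnNhd ℂ F U) {u : ℂ}
    (hu : u ∈ U) {m : ℕ} (ho : analyticOrderAt F u = (m : ℕ∞)) :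
    ∃ G : ℂ → ℂ, AnalyticOnNhd ℂ G U ∧ (∀ z, z ∈ U → F z = (z - u) ^ m * G z) ∧ G u ≠ 0 ∧
      ∀ z ∈ U, z ≠ u → analyticOrderAt G z = analyticOrderAt F z := by
  obtain ⟨g, hg, hgu, hFg⟩ := (hF u hu).analyticOrderAt_eq_natCast.1 ho
  let G : ℂ → ℂ := fun z => if z = u then g u else F z / (z - u) ^ m
  have hGu : G =ᶠ[𝓝 u] g := by
    filter_upwards [hFg] with z hz
    by_cases h : z = u
    · simp [G, h]
    · have h1 : (z - u) ^ m ≠ 0 := pow_ne_zero _ (sub_ne_zero.2 h)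
      simp only [G, h, if_false, hz, smul_eq_mul]
      field_simp
  have hGz : ∀ z, z ≠ u → G =ᶠ[𝓝 z] fun w => F w / (w - u) ^ m := by
    intro z hz
    filter_upwards [isOpen_ne.mem_nhds hz] with w hw
    have : w ≠ u := hw
    simp [G, this]
  have hGan : AnalyticOnNhd ℂ G U := by
    intro z hz
    by_cases h : z = u
    · subst h
      exact hg.congr hGu.symm
    · refine AnalyticAt.congr ?_ (hGz z h).symm
      exact (hF z hz).div (by fun_prop) (pow_ne_zero _ (sub_ne_zero.2 h))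
  have hmul : ∀ z, z ∈ U → F z = (z - u) ^ m * G z := by
    intro z hz
    by_cases h : z = u
    · subst h
      have := hFg.self_of_nhds
      simpa [G] using this
    · have h1 : (z - u) ^ m ≠ 0 := pow_ne_zero _ (sub_ne_zero.2 h)
      simp only [G, h, if_false]
      field_simp
  refine ⟨G, hGan, hmul, by simpa [G] using hgu, ?_⟩
  intro z hz h
  have h1 : F =ᶠ[𝓝 z] fun w => (w - u) ^ m * G w := by
    filter_upwards [hGz z h, isOpen_ne.mem_nhds h] with w hw hw2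
    have h3 : w ≠ u := hw2
    have h4 : (w - u) ^ m ≠ 0 := pow_ne_zero _ (sub_ne_zero.2 h3)
    rw [hw]
    field_simp
  rw [analyticOrderAt_congr h1]
  have h2 : analyticOrderAt (fun w : ℂ => (w - u) ^ m) z = 0 := by
    rw [AnalyticAt.analyticOrderAt_eq_zero (by fun_prop)]
    exact pow_ne_zero _ (sub_ne_zero.2 h)
  have h3 := analyticOrderAt_mul (f := fun w : ℂ => (w - u) ^ m) (g := G) (z₀ := z) (by fun_prop)
    (hGan z hz)
  have h4 : ((fun w : ℂ => (w - u) ^ m) * G) = fun w => (w - u) ^ m * G w := rfl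
  rw [h4] at h3
  rw [h3, h2, zero_add]

/-- Take a finite set of zeros out. -/
theorem take_zeros {U W : Set ℂ} (N : ℕ) (S : Finset ℂ) :
    ∀ F : ℂ → ℂ, AnalyticOnNhd ℂ F U →
      (∀ z ∈ U, ∃ m : ℕ, analyticOrderAt F z = ((N * m : ℕ) : ℕ∞)) →
      (∀ z ∈ W, F z = 0 → z ∈ S) → W ⊆ U →
      ∃ P G : ℂ → ℂ, Differentiable ℂ P ∧ AnalyticOnNhd ℂ G U ∧
        (∀ z ∈ U, F z = P z ^ N * G z) ∧ ∀ z ∈ W, G z ≠ 0 := by
  classical
  induction S using Finset.induction_on with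
  | empty =>
    intro F hF ho hz hW
    exact ⟨fun _ => 1, F, differentiable_const _, hF, by simp, fun z hz' h => by simpa using hz z hz' h⟩
  | insert u S hu ih =>
    intro F hF ho hz hW
    by_cases huU : u ∈ U
    · obtain ⟨m, hm⟩ := ho u huU
      obtain ⟨G1, hG1, hFG, hG1u, hord⟩ := take_zero hF huU hm
      obtain ⟨P, G, hP, hG, hPG, hne⟩ := ih G1 hG1 (by
        intro z hzU
        by_cases h : z = u
        · subst h
          refine ⟨0, ?_⟩
          rw [mul_zero, Nat.cast_zero, AnalyticAt.analyticOrderAt_eq_zero (hG1 _ hzU)]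
          exact hG1u
        · obtain ⟨m', hm'⟩ := ho z hzU
          exact ⟨m', by rw [hord z hzU h, hm']⟩) (by
        intro z hzW h0
        have h1 : F z = 0 := by rw [hFG z (hW hzW), h0, mul_zero]
        have h2 := hz z hzW h1
        rw [Finset.mem_insert] at h2
        rcases h2 with h2 | h2
        · exact absurd (h2 ▸ h0) hG1u
        · exact h2) hW
      refine ⟨fun z => (z - u) ^ m * P z, G, by fun_prop, hG, ?_, hne⟩
      intro z hzU
      rw [hFG z hzU, hPG z hzU, mul_pow, ← pow_mul, mul_comm m N]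
      ring
    · refine ih F hF ho ?_ hW
      intro z hzW h0
      have h2 := hz z hzW h0
      rw [Finset.mem_insert] at h2
      rcases h2 with h2 | h2
      · exact absurd (h2 ▸ hW hzW) huU
      · exact h2

/-- A zero free holomorphic function on a ball is an N-th power. -/
theorem root_ball_ne {N : ℕ} (hN : 0 < N) {c : ℂ} {R : ℝ} {G : ℂ → ℂ}
    (hG : AnalyticOnNhd ℂ G (ball c R)) (h0 : ∀ z ∈ ball c R, G z ≠ 0) :
    ∃ r : ℂ → ℂ, DifferentiableOn ℂ r (ball c R) ∧ ∀ z ∈ ball c R, r z ^ N = G z := by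
  by_cases hR : 0 < R
  swap
  · refine ⟨fun _ => 0, by fun_prop, fun z hz => ?_⟩
    rw [ball_eq_empty.2 (not_lt.1 hR)] at hz
    exact absurd hz (by simp)
  have hd : DifferentiableOn ℂ G (ball c R) := hG.differentiableOn
  have hd' : DifferentiableOn ℂ (deriv G) (ball c R) := hG.deriv.differentiableOn
  have hq : DifferentiableOn ℂ (fun z => deriv G z / G z) (ball c R) := hd'.div hd h0
  obtain ⟨L, hL⟩ := hq.isExactOn_ball
  have hc : c ∈ ball c R := mem_ball_self hR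
  have hconst : ∀ z ∈ ball c R, G z * exp (-L z) = G c * exp (-L c) := by
    have hder : ∀ z ∈ ball c R, HasDerivAt (fun w => G w * exp (-L w)) 0 z := by
      intro z hz
      have h1 : HasDerivAt G (deriv G z) z := (hG z hz).differentiableAt.hasDerivAt
      have h2 := (hL z hz).neg.cexp
      have h4 : G z * (deriv G z / G z) = deriv G z := by
        have := h0 z hz
        field_simp
      refine (h1.mul h2).congr_deriv ?_
      simp only [Pi.neg_apply]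
      linear_combination (-cexp (-L z)) * h4
    intro z hz
    exact (convex_ball c R).is_const_of_fderivWithin_eq_zero (𝕜 := ℂ)
      (f := fun w => G w * exp (-L w))
      (fun w hw => (hder w hw).differentiableAt.differentiableWithinAt)
      (fun w hw => by
        rw [fderivWithin_of_isOpen isOpen_ball hw]
        ext
        simp [(hder w hw).deriv]) hz hc
  obtain ⟨a, ha⟩ : ∃ a : ℂ, a ^ N = G c * exp (-L c) := by
    obtain ⟨a, ha⟩ := IsAlgClosed.exists_pow_nat_eq (G c * exp (-L c)) hN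
    exact ⟨a, ha⟩
  refine ⟨fun z => a * exp (L z / N), ?_, ?_⟩
  · intro z hz
    have := (hL z hz).differentiableAt.differentiableWithinAt (s := ball c R)
    fun_prop
  · intro z hz
    have hN' : (N : ℂ) ≠ 0 := by exact_mod_cast hN.ne'
    rw [mul_pow, ha, ← exp_nat_mul, mul_div_cancel₀ _ hN', ← hconst z hz, mul_assoc, ← exp_add]
    simp

/-- The N-th root on a ball. -/
theorem root_ball {N : ℕ} (hN : 0 < N) {U : Set ℂ} {c : ℂ} {R : ℝ} (hb : closedBall c R ⊆ U)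
    {F : ℂ → ℂ} (hF : AnalyticOnNhd ℂ F U)
    (ho : ∀ z ∈ U, ∃ m : ℕ, analyticOrderAt F z = ((N * m : ℕ) : ℕ∞)) :
    ∃ r : ℂ → ℂ, DifferentiableOn ℂ r (ball c R) ∧ ∀ z ∈ ball c R, r z ^ N = F z := by
  have hfin : {z | z ∈ closedBall c R ∧ F z = 0}.Finite := by
    by_contra hinf
    obtain ⟨x, hx, hacc⟩ := Set.Infinite.exists_accPt_of_subset_isCompact hinf
      (isCompact_closedBall c R) (fun z hz => hz.1)
    have h1 : ∃ᶠ z in 𝓝[≠] x, F z = 0 := by
      have := accPt_iff_frequently_nhdsNE.1 hacc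
      exact this.mono fun z hz => hz.2
    have h2 := (hF x (hb hx)).frequently_zero_iff_eventually_zero.1 h1
    obtain ⟨m, hm⟩ := ho x (hb hx)
    rw [analyticOrderAt_eq_top.2 h2] at hm
    exact (ENat.natCast_ne_top _) hm.symm
  obtain ⟨P, G, hP, hG, hPG, hne⟩ := take_zeros (U := U) (W := ball c R) N hfin.toFinset F hF ho
    (fun z hz h0 => by
      rw [Set.Finite.mem_toFinset]
      exact ⟨ball_subset_closedBall hz, h0⟩) (ball_subset_closedBall.trans hb)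
  obtain ⟨r, hr, hrN⟩ := root_ball_ne hN (hG.mono (ball_subset_closedBall.trans hb)) hne
  refine ⟨fun z => P z * r z, hP.differentiableOn.mul hr, fun z hz => ?_⟩
  rw [mul_pow, hrN z hz, hPG z (hb (ball_subset_closedBall hz))]

/-- Uniqueness of the root on a connected open set. -/
theorem root_unique_on {N : ℕ} (hN : 0 < N) {W : Set ℂ} (hW : IsOpen W) (hc : IsPreconnected W)
    {r s : ℂ → ℂ} (hr : DifferentiableOn ℂ r W) (hs : DifferentiableOn ℂ s W)
    (h : ∀ z ∈ W, r z ^ N = s z ^ N) {z₀ : ℂ} (hz₀ : z₀ ∈ W) (h0 : s z₀ ≠ 0) :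
    ∀ z ∈ W, r z = (r z₀ / s z₀) * s z := by
  classical
  set ζ : ℂ := r z₀ / s z₀ with hζ
  have hra : AnalyticOnNhd ℂ r W := hr.analyticOnNhd hW
  have hsa : AnalyticOnNhd ℂ s W := hs.analyticOnNhd hW
  -- near z₀ the quotient takes finitely many values, hence it is constant
  have hfinr : ({ξ : ℂ | ξ ^ N = 1}).Finite := by
    have : {ξ : ℂ | ξ ^ N = 1} = ((Polynomial.nthRootsFinset N (1 : ℂ) : Finset ℂ) : Set ℂ) := by
      ext ξ
      simp [Polynomial.mem_nthRootsFinset hN]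
    rw [this]
    exact Finset.finite_toSet _
  have hcont : ContinuousAt (fun z => r z / s z) z₀ :=
    ((hra z₀ hz₀).continuousAt).div ((hsa z₀ hz₀).continuousAt) h0
  have hsne : ∀ᶠ z in 𝓝 z₀, s z ≠ 0 := (hsa z₀ hz₀).continuousAt.eventually_ne h0
  have hval : ∀ᶠ z in 𝓝 z₀, r z / s z ∈ {ξ : ℂ | ξ ^ N = 1} := by
    filter_upwards [hsne, hW.mem_nhds hz₀] with z hz hzW
    show (r z / s z) ^ N = 1
    rw [div_pow, h z hzW, div_self (pow_ne_zero _ hz)]
  have hev : ∀ᶠ z in 𝓝 z₀, r z / s z = ζ := by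
    have hclosed : IsClosed ({ξ : ℂ | ξ ^ N = 1} \ {ζ}) := (hfinr.subset (fun _ hx => hx.1)).isClosed
    have h1 : ({ξ : ℂ | ξ ^ N = 1} \ {ζ})ᶜ ∈ 𝓝 (r z₀ / s z₀) :=
      hclosed.isOpen_compl.mem_nhds (by simp [hζ])
    filter_upwards [hcont h1, hval] with z hz1 hz2
    by_contra hne
    exact hz1 ⟨hz2, hne⟩
  have hev2 : r =ᶠ[𝓝 z₀] fun z => ζ * s z := by
    filter_upwards [hev, hsne] with z hz hz2
    rw [← hz]
    field_simp
  have hcs : AnalyticOnNhd ℂ (fun z => ζ * s z) W := fun z hz => analyticAt_const.mul (hsa z hz)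
  have := hra.eqOn_of_preconnected_of_eventuallyEq hcs hc hz₀ hev2
  intro z hz
  exact this hz

/-- The exhausting balls. -/
theorem ball_sub {t : ℝ} (ht : 1 < t) : closedBall ((t : ℂ) * Complex.I) (t - 1 / t) ⊆ {z : ℂ | 0 < z.im} := by
  intro z hz
  rw [mem_closedBall, dist_eq_norm] at hz
  have h1 : |(z - (t : ℂ) * Complex.I).im| ≤ t - 1 / t := (abs_im_le_norm _).trans hz
  have h2 : (z - (t : ℂ) * Complex.I).im = z.im - t := by simp
  rw [h2] at h1
  have h3 := (abs_le.1 h1).1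
  have h4 : 0 < 1 / t := by positivity
  change 0 < z.im
  linarith

theorem ball_mono {t s : ℝ} (ht : 1 < t) (hts : t ≤ s) :
    ball ((t : ℂ) * Complex.I) (t - 1 / t) ⊆ ball ((s : ℂ) * Complex.I) (s - 1 / s) := by
  apply ball_subset_ball'
  have h1 : dist ((t : ℂ) * Complex.I) ((s : ℂ) * Complex.I) = s - t := by
    rw [dist_eq_norm, ← sub_mul, norm_mul, norm_I, mul_one, ← ofReal_sub, norm_real,
      Real.norm_eq_abs, abs_sub_comm, abs_of_nonneg (by linarith)]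
  rw [h1]
  have h2 : 1 / s ≤ 1 / t := one_div_le_one_div_of_le (by linarith) hts
  linarith

theorem mem_ball_of {z : ℂ} (hz : 0 < z.im) : ∃ k : ℕ, z ∈ ball (((k + 2 : ℕ) : ℝ) * Complex.I : ℂ)
    (((k + 2 : ℕ) : ℝ) - 1 / ((k + 2 : ℕ) : ℝ)) := by
  obtain ⟨k, hk⟩ := exists_nat_gt ((z.re ^ 2 + z.im ^ 2 + 2) / (2 * z.im))
  refine ⟨k, ?_⟩
  set t : ℝ := ((k + 2 : ℕ) : ℝ) with ht
  have ht2 : (2 : ℝ) ≤ t := by rw [ht]; push_cast; linarith [(Nat.cast_nonneg k : (0 : ℝ) ≤ k)]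
  have htk : (k : ℝ) ≤ t := by rw [ht]; push_cast; linarith
  have h1 : z.re ^ 2 + z.im ^ 2 + 2 < 2 * z.im * t := by
    rw [div_lt_iff₀ (by positivity)] at hk
    nlinarith
  have h5 : 0 < t - 1 / t := by
    have : 1 / t ≤ 1 / 2 := one_div_le_one_div_of_le (by norm_num) ht2
    linarith
  rw [mem_ball, dist_eq_norm]
  apply lt_of_pow_lt_pow_left₀ 2 h5.le
  rw [← normSq_eq_norm_sq, normSq_apply]
  have h2 : (z - (t : ℂ) * Complex.I).im = z.im - t := by simp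
  have h3 : (z - (t : ℂ) * Complex.I).re = z.re := by simp
  rw [h2, h3]
  have h4 : (t - 1 / t) ^ 2 = t ^ 2 - 2 + (1 / t) ^ 2 := by
    have : t ≠ 0 := by positivity
    field_simp
    ring
  rw [h4]
  have h6 : 0 ≤ (1 / t) ^ 2 := by positivity
  nlinarith

/-- The N-th root on the upper half plane, in terms of functions on ℂ. -/
theorem root_plane {N : ℕ} (hN : 0 < N) {F : ℂ → ℂ}
    (hF : DifferentiableOn ℂ F {z : ℂ | 0 < z.im})
    (ho : ∀ z : ℂ, 0 < z.im → ∃ m : ℕ, analyticOrderAt F z = ((N * m : ℕ) : ℕ∞)) :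
    ∃ r : ℂ → ℂ, DifferentiableOn ℂ r {z : ℂ | 0 < z.im} ∧ ∀ z : ℂ, 0 < z.im → r z ^ N = F z := by
  classical
  have hU : IsOpen {z : ℂ | 0 < z.im} := isOpen_lt continuous_const continuous_im
  have hFa : AnalyticOnNhd ℂ F {z : ℂ | 0 < z.im} := hF.analyticOnNhd hU
  let B : ℕ → Set ℂ := fun k => ball (((k + 2 : ℕ) : ℝ) * Complex.I : ℂ)
    (((k + 2 : ℕ) : ℝ) - 1 / ((k + 2 : ℕ) : ℝ))
  have h2 : ∀ k : ℕ, (1 : ℝ) < ((k + 2 : ℕ) : ℝ) := fun k => by
    push_cast; linarith [(Nat.cast_nonneg k : (0 : ℝ) ≤ k)]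
  have hBU : ∀ k, closedBall (((k + 2 : ℕ) : ℝ) * Complex.I : ℂ)
    (((k + 2 : ℕ) : ℝ) - 1 / ((k + 2 : ℕ) : ℝ)) ⊆ {z : ℂ | 0 < z.im} := fun k => ball_sub (h2 k)
  have hBo : ∀ k, IsOpen (B k) := fun k => isOpen_ball
  have hBm : ∀ k l, k ≤ l → B k ⊆ B l := fun k l hkl =>
    ball_mono (h2 k) (by exact_mod_cast Nat.add_le_add_right hkl 2)
  -- a base point
  obtain ⟨z₀, hz₀, hF0⟩ : ∃ z₀ ∈ B 0, F z₀ ≠ 0 := by
    by_contra hcon
    push Not at hcon
    have hc : (((0 + 2 : ℕ) : ℝ) * Complex.I : ℂ) ∈ B 0 := by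
      apply mem_ball_self
      norm_num
    have hev : ∀ᶠ z in 𝓝 (((0 + 2 : ℕ) : ℝ) * Complex.I : ℂ), F z = 0 := by
      filter_upwards [(hBo 0).mem_nhds hc] with z hz using hcon z hz
    obtain ⟨m, hm⟩ := ho _ (hBU 0 (ball_subset_closedBall hc))
    rw [analyticOrderAt_eq_top.2 hev] at hm
    exact (ENat.natCast_ne_top _) hm.symm
  obtain ⟨w₀, hw₀⟩ := IsAlgClosed.exists_pow_nat_eq (F z₀) hN
  have hw0 : w₀ ≠ 0 := by
    intro h
    rw [h, zero_pow hN.ne'] at hw₀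
    exact hF0 hw₀.symm
  have hex : ∀ k, ∃ r : ℂ → ℂ, DifferentiableOn ℂ r (B k) ∧ (∀ z ∈ B k, r z ^ N = F z) ∧
      r z₀ = w₀ := by
    intro k
    obtain ⟨r, hr, hrN⟩ := root_ball hN (hBU k) hFa (fun z hz => ho z hz)
    have hz₀k : z₀ ∈ B k := hBm 0 k (Nat.zero_le k) hz₀
    have h3 := hrN z₀ hz₀k
    have h4 : r z₀ ≠ 0 := by
      intro h
      rw [h, zero_pow hN.ne'] at h3
      exact hF0 h3.symm
    refine ⟨fun z => (w₀ / r z₀) * r z, hr.const_mul _, ?_, by field_simp⟩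
    intro z hz
    rw [mul_pow, div_pow, hw₀, h3, div_self hF0, one_mul, hrN z hz]
  choose r hr hrN hr0 using hex
  have hagree : ∀ k l, k ≤ l → ∀ z ∈ B k, r l z = r k z := by
    intro k l hkl z hz
    have h5 := root_unique_on hN (hBo k) ((convex_ball _ _).isPreconnected)
      ((hr l).mono (hBm k l hkl)) (hr k)
      (fun z hz => by rw [hrN l z (hBm k l hkl hz), hrN k z hz])
      (hBm 0 k (Nat.zero_le k) hz₀) (by rw [hr0]; exact hw0) z hz
    rw [h5, hr0, hr0, div_self hw0, one_mul]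
  have hcov : ∀ z : ℂ, 0 < z.im → ∃ k, z ∈ B k := fun z hz => mem_ball_of hz
  let ρ : ℂ → ℂ := fun z => if h : ∃ k, z ∈ B k then r (Nat.find h) z else 0
  have hρ : ∀ k, ∀ z ∈ B k, ρ z = r k z := by
    intro k z hz
    have hex : ∃ k, z ∈ B k := ⟨k, hz⟩
    have h6 : ρ z = r (Nat.find hex) z := by simp only [ρ, hex, dif_pos]
    rw [h6]
    exact (hagree _ _ (Nat.find_min' hex hz) z (Nat.find_spec hex)).symm
  refine ⟨ρ, ?_, ?_⟩
  · intro z hz
    obtain ⟨k, hk⟩ := hcov z hz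
    have h7 : DifferentiableAt ℂ (r k) z := (hr k).differentiableAt ((hBo k).mem_nhds hk)
    have h8 : ρ =ᶠ[𝓝 z] r k := by
      filter_upwards [(hBo k).mem_nhds hk] with w hw using hρ k w hw
    exact (h7.congr_of_eventuallyEq h8).differentiableWithinAt
  · intro z hz
    obtain ⟨k, hk⟩ := hcov z hz
    rw [hρ k z hk, hrN k z hk]

/-- **ROOT**: a holomorphic function on the upper half plane all of whose orders are (finite and)
divisible by N is an N-th power. -/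
theorem exists_root (N : ℕ) (hN : 0 < N) (f : ℍ → ℂ) (hf : MDifferentiable 𝓘(ℂ) 𝓘(ℂ) f)
    (ho : ∀ τ : ℍ, ∃ m : ℕ, analyticOrderAt (f ∘ UpperHalfPlane.ofComplex) (τ : ℂ)
      = ((N * m : ℕ) : ℕ∞)) :
    ∃ h : ℍ → ℂ, MDifferentiable 𝓘(ℂ) 𝓘(ℂ) h ∧ ∀ τ, h τ ^ N = f τ := by
  obtain ⟨r, hr, hrN⟩ := root_plane hN (UpperHalfPlane.mdifferentiable_iff.1 hf)
    (fun z hz => ho ⟨z, hz⟩)
  refine ⟨fun τ => r τ, ?_, ?_⟩
  · rw [UpperHalfPlane.mdifferentiable_iff]
    refine hr.congr ?_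
    intro z hz
    simp only [Function.comp_apply]
    rw [UpperHalfPlane.ofComplex_apply_of_im_pos hz]
  · intro τ
    have := hrN τ τ.im_pos
    simpa using this

/-- Two roots differ by a root of unity. -/
theorem root_unique (N : ℕ) (hN : 0 < N) (h h' : ℍ → ℂ) (hh : MDifferentiable 𝓘(ℂ) 𝓘(ℂ) h)
    (hh' : MDifferentiable 𝓘(ℂ) 𝓘(ℂ) h') (h0 : h ≠ 0) (he : ∀ τ, h' τ ^ N = h τ ^ N) :
    ∃ ζ : ℂˣ, ζ ^ N = 1 ∧ ∀ τ, h' τ = ζ * h τ := by
  obtain ⟨τ₀, hτ₀⟩ : ∃ τ, h τ ≠ 0 := by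
    by_contra hcon
    push Not at hcon
    exact h0 (funext hcon)
  have hU : IsOpen {z : ℂ | 0 < z.im} := isOpen_lt continuous_const continuous_im
  have hconv : Convex ℝ {z : ℂ | 0 < z.im} := by
    have := (convex_halfSpace_im_gt 0)
    exact this
  have key := root_unique_on hN hU hconv.isPreconnected
    (UpperHalfPlane.mdifferentiable_iff.1 hh') (UpperHalfPlane.mdifferentiable_iff.1 hh)
    (fun z hz => by
      simp only [Function.comp_apply]
      exact he _) (z₀ := (τ₀ : ℂ)) τ₀.im_pos (by simpa using hτ₀)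
  have h1 : h' τ₀ ^ N = h τ₀ ^ N := he τ₀
  have h2 : h' τ₀ ≠ 0 := by
    intro h3
    rw [h3, zero_pow hN.ne'] at h1
    exact pow_ne_zero N hτ₀ h1.symm
  refine ⟨Units.mk0 (h' τ₀ / h τ₀) (div_ne_zero h2 hτ₀), ?_, ?_⟩
  · ext
    simp only [Units.val_pow_eq_pow_val, Units.val_mk0, Units.val_one, div_pow]
    rw [h1, div_self (pow_ne_zero N hτ₀)]
  · intro τ
    have := key (τ : ℂ) τ.im_pos
    simpa using this

/-- **CHAR**: the N-th root of a form transforms by a character. -/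
theorem exists_char (N : ℕ) (hN : 0 < N) (Γ : Subgroup SL(2, ℤ)) (k : ℤ) (f h : ℍ → ℂ)
    (hh : MDifferentiable 𝓘(ℂ) 𝓘(ℂ) h) (h0 : h ≠ 0) (hf : ∀ τ, h τ ^ N = f τ)
    (hΓ : ∀ γ ∈ Γ, f ∣[k * N] γ = f) :
    ∃ φ : Γ →* ℂˣ, (∀ γ, φ γ ^ N = 1) ∧ ∀ γ : Γ, h ∣[k] (γ : SL(2, ℤ)) = (φ γ : ℂ) • h := by
  have hpow : ∀ γ ∈ Γ, ∀ τ, (h ∣[k] γ) τ ^ N = h τ ^ N := by
    intro γ hγ τ
    have h1 := congrFun (hΓ γ hγ) τ
    rw [ModularForm.SL_slash_apply] at h1 ⊢
    rw [mul_pow, hf, hf, ← h1, ← zpow_natCast, ← zpow_mul, neg_mul]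
  have hsl : ∀ γ : SL(2, ℤ), MDifferentiable 𝓘(ℂ) 𝓘(ℂ) (h ∣[k] γ) := by
    intro γ
    exact hh.slash k _
  have hex : ∀ γ : Γ, ∃ ζ : ℂˣ, ζ ^ N = 1 ∧ h ∣[k] (γ : SL(2, ℤ)) = (ζ : ℂ) • h := by
    intro γ
    obtain ⟨ζ, h1, h2⟩ := root_unique N hN h (h ∣[k] (γ : SL(2, ℤ))) hh (hsl γ) h0 (hpow γ γ.2)
    exact ⟨ζ, h1, funext h2⟩
  choose φ hφ1 hφ2 using hex
  obtain ⟨τ₀, hτ₀⟩ : ∃ τ, h τ ≠ 0 := by
    by_contra hcon
    push Not at hcon
    exact h0 (funext hcon)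
  have hinj : ∀ a b : ℂˣ, (a : ℂ) • h = (b : ℂ) • h → a = b := by
    intro a b hab
    have := congrFun hab τ₀
    simp only [Pi.smul_apply, smul_eq_mul] at this
    exact Units.ext (mul_right_cancel₀ hτ₀ this)
  refine ⟨{ toFun := φ, map_one' := ?_, map_mul' := ?_ }, hφ1, hφ2⟩
  · apply hinj
    rw [← hφ2]
    simp
  · intro γ δ
    apply hinj
    rw [← hφ2, Subgroup.coe_mul, SlashAction.slash_mul, hφ2 γ, ModularForm.SL_smul_slash, hφ2 δ,
      smul_smul, Units.val_mul]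

/-- The character depends only on the function, not on the root. -/
theorem char_unique (N : ℕ) (hN : 0 < N) (γ : SL(2, ℤ)) (k : ℤ) (h h' : ℍ → ℂ)
    (hh : MDifferentiable 𝓘(ℂ) 𝓘(ℂ) h) (hh' : MDifferentiable 𝓘(ℂ) 𝓘(ℂ) h') (h0 : h ≠ 0)
    (he : ∀ τ, h' τ ^ N = h τ ^ N) (a b : ℂ) (ha : h ∣[k] γ = a • h) (hb : h' ∣[k] γ = b • h') :
    a = b := by
  obtain ⟨ζ, hζ, hz⟩ := root_unique N hN h h' hh hh' h0 he
  obtain ⟨τ₀, hτ₀⟩ : ∃ τ, h τ ≠ 0 := by
    by_contra hcon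
    push Not at hcon
    exact h0 (funext hcon)
  have h1 : h' = (ζ : ℂ) • h := funext hz
  rw [h1, ModularForm.SL_smul_slash, ha, smul_smul, smul_smul] at hb
  have := congrFun hb τ₀
  simp only [Pi.smul_apply, smul_eq_mul] at this
  have h2 := mul_right_cancel₀ hτ₀ this
  have h3 : (ζ : ℂ) ≠ 0 := ζ.ne_zero
  rw [mul_comm] at h2
  exact mul_right_cancel₀ h3 h2

end Vale.Agent.P022.H888
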