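import Vale.Agent.P022.H888.Lim
import Vale.Agent.P022.H138.LawF
import Vale.Agent.P022.H138.LawE
import Vale.Agent.P022.H420.Po

/-!
P022, row GEN6 (theta version): the laws of the theta series and the stabilizer of their quotients
in `Γ₀(3)`.
-/

open UpperHalfPlane hiding I
open Filter Topology Complex
open scoped MatrixGroups ModularForm Manifold Real

noncomputable section

namespace Vale.Agent.P022.H888.Gen

open Vale.Agent.P022 Vale.Agent.P022.H964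

theorem LAW3 : LAWStmt := H138.LAW H420.po

/-- the constant function -/
def one : ℤ × ℤ → ℂ := fun _ => 1

theorem per_one (m : ℕ) : Per m one := fun _ _ => rfl

/-- `Σ f(v) e((x² + x y + y²) ρ τ)` -/
abbrev F3 (ρ : ℚ) (f : ℤ × ℤ → ℂ) : ℍ → ℂ := Th 1 1 1 3 0 ρ f

/-- `Σ f(v) e((x² + y²) ρ τ)` -/
abbrev F4 (ρ : ℚ) (f : ℤ × ℤ → ℂ) : ℍ → ℂ := Th 1 0 1 4 0 ρ f

/-- `cτ + d` -/
abbrev dn' (γ : SL(2, ℤ)) (τ : ℍ) : ℂ := (γ 1 0 : ℂ) * τ + γ 1 1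

theorem dn_eq (γ : SL(2, ℤ)) (τ : ℍ) : denom γ τ = dn' γ τ := by
  rw [ModularGroup.denom_apply]

theorem dn_ne (γ : SL(2, ℤ)) (τ : ℍ) : dn' γ τ ≠ 0 := by
  rw [← dn_eq]; exact UpperHalfPlane.denom_ne_zero _ _

theorem smul_eq' (γ : SL(2, ℤ)) (τ : ℍ) :
    ((γ • τ : ℍ) : ℂ) = ((γ 0 0 : ℂ) * τ + γ 0 1) / dn' γ τ := by
  rw [UpperHalfPlane.coe_specialLinearGroup_apply]
  simp

theorem det_eq (γ : SL(2, ℤ)) : γ 0 0 * γ 1 1 - γ 0 1 * γ 1 0 = 1 := by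
  have := γ.det_coe
  rwa [Matrix.det_fin_two] at this

theorem law_one (A B C d : ℤ) (hdet : A * d - B * C = 1) (hC : (3 : ℤ) ∣ C) (w : ℂ)
    (hw : 0 < w.im) : th 1 1 1 3 0 one ((A * w + B) / (C * w + d)) =
      jacobiSym d 3 * (C * w + d) * th 1 1 1 3 0 one w := by
  have := LAW3 1 1 1 3 one_pos (by decide) (by norm_num) 0 1 one_pos one (per_one 1) A B C d hdet
    (by simpa using hC) w hw
  have h1 : (fun v : ℤ × ℤ => one (d • v)) = one := rfl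
  rw [h1] at this
  simpa using this

theorem F3_apply (ρ : ℚ) (f : ℤ × ℤ → ℂ) (τ : ℍ) :
    F3 ρ f τ = th 1 1 1 3 0 f ((ρ : ℂ) * (τ : ℂ)) := rfl

theorem F4_apply (ρ : ℚ) (f : ℤ × ℤ → ℂ) (τ : ℍ) :
    F4 ρ f τ = th 1 0 1 4 0 f ((ρ : ℂ) * (τ : ℂ)) := rfl

/-- the law of `F_f(τ/m)` -/
theorem law_f {m : ℕ} (hm : 0 < m) {f : ℤ × ℤ → ℂ} (hf : Per m f) (γ : SL(2, ℤ))
    (hB : (m : ℤ) ∣ γ 0 1) (hC : (3 * m : ℤ) ∣ γ 1 0) (τ : ℍ) :
    F3 (1 / m) f (γ • τ) =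
      jacobiSym (γ 1 1) 3 * dn' γ τ * F3 (1 / m) (fun v => f (γ 1 1 • v)) τ := by
  obtain ⟨b, hb⟩ := hB
  obtain ⟨c, hc⟩ := hC
  have hm' : (m : ℂ) ≠ 0 := by exact_mod_cast hm.ne'
  have hdet := det_eq γ
  have hw : 0 < (((1 / m : ℚ) : ℂ) * (τ : ℂ)).im := by
    have h1 : ((1 / m : ℚ) : ℂ) = ((1 / m : ℝ) : ℂ) := by push_cast; rfl
    rw [h1, Complex.im_ofReal_mul]
    exact mul_pos (by positivity) τ.im_pos
  have h1 := LAW3 1 1 1 3 one_pos (by decide) (by norm_num) 0 m hm f hf (γ 0 0) b (γ 1 0 * m)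
    (γ 1 1) (by rw [hb] at hdet; linear_combination hdet) ⟨c, by rw [hc]; push_cast; ring⟩ _ hw
  have h2 : (((γ 0 0 : ℤ) : ℂ) * (((1 / m : ℚ) : ℂ) * (τ : ℂ)) + ((b : ℤ) : ℂ)) /
      (((γ 1 0 * m : ℤ) : ℂ) * (((1 / m : ℚ) : ℂ) * (τ : ℂ)) + ((γ 1 1 : ℤ) : ℂ)) =
      ((1 / m : ℚ) : ℂ) * ((γ • τ : ℍ) : ℂ) := by
    rw [smul_eq', hb]
    push_cast
    have hne := dn_ne γ τ
    have h3 : ((γ 1 0 : ℤ) : ℂ) * (m : ℂ) * (1 / (m : ℂ) * (τ : ℂ)) + ((γ 1 1 : ℤ) : ℂ) = dn' γ τ := by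
      unfold dn'
      field_simp
    rw [h3]
    field_simp
  rw [h2] at h1
  have h3 : ((γ 1 0 * m : ℤ) : ℂ) * (((1 / m : ℚ) : ℂ) * (τ : ℂ)) + ((γ 1 1 : ℤ) : ℂ) = dn' γ τ := by
    push_cast
    unfold dn'
    field_simp
  rw [h3] at h1
  rw [F3_apply, F3_apply, h1]
  ring

/-- the law of `a(τ)` -/
theorem law_a (γ : SL(2, ℤ)) (hC : (3 : ℤ) ∣ γ 1 0) (τ : ℍ) :
    F3 1 one (γ • τ) = jacobiSym (γ 1 1) 3 * dn' γ τ * F3 1 one τ := by
  have h1 := law_one _ _ _ _ (det_eq γ) hC τ τ.im_pos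
  have h2 := smul_eq' γ τ
  unfold dn' at h2
  rw [← h2] at h1
  rw [F3_apply, F3_apply, Rat.cast_one, one_mul, one_mul, h1]

/-- the law of `a(mτ)` -/
theorem law_am {m : ℕ} (hm : 0 < m) (γ : SL(2, ℤ)) (hC : (3 * m : ℤ) ∣ γ 1 0) (τ : ℍ) :
    F3 m one (γ • τ) = jacobiSym (γ 1 1) 3 * dn' γ τ * F3 m one τ := by
  obtain ⟨c, hc⟩ := hC
  have hm' : (m : ℂ) ≠ 0 := by exact_mod_cast hm.ne'
  have hw : 0 < ((m : ℂ) * (τ : ℂ)).im := by
    have h1 : (m : ℂ) = ((m : ℝ) : ℂ) := by push_cast; rfl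
    rw [h1, Complex.im_ofReal_mul]
    exact mul_pos (by positivity) τ.im_pos
  have h1 := law_one (γ 0 0) (m * γ 0 1) (3 * c) (γ 1 1)
    (by have := det_eq γ; rw [hc] at this; linear_combination this) ⟨c, rfl⟩ _ hw
  have h3 : ((3 * c : ℤ) : ℂ) * ((m : ℂ) * (τ : ℂ)) + ((γ 1 1 : ℤ) : ℂ) = dn' γ τ := by
    unfold dn'
    rw [hc]
    push_cast
    ring
  have h2 : (((γ 0 0 : ℤ) : ℂ) * ((m : ℂ) * (τ : ℂ)) + ((m * γ 0 1 : ℤ) : ℂ)) /
      (((3 * c : ℤ) : ℂ) * ((m : ℂ) * (τ : ℂ)) + ((γ 1 1 : ℤ) : ℂ)) =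
      (m : ℂ) * ((γ • τ : ℍ) : ℂ) := by
    rw [h3, smul_eq']
    push_cast
    ring
  rw [h2, h3] at h1
  rw [F3_apply, F3_apply, Rat.cast_natCast, h1]

/-- the quadratic character of conductor four -/
theorem kr_eq (d : ℤ) (h : (4 : ℤ) ∣ d - 1 ∨ (4 : ℤ) ∣ d + 1) :
    H776.kr 2 1 d = if (4 : ℤ) ∣ d - 1 then 1 else -1 := by
  have h8 : (d : ZMod 8) = 1 ∨ (d : ZMod 8) = 3 ∨ (d : ZMod 8) = 5 ∨ (d : ZMod 8) = 7 := by
    have h1 : d % 8 = 1 ∨ d % 8 = 3 ∨ d % 8 = 5 ∨ d % 8 = 7 := by omega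
    have h2 : (d : ZMod 8) = ((d % 8 : ℤ) : ZMod 8) := by
      exact_mod_cast (ZMod.intCast_mod d 8).symm
    rw [h2]
    rcases h1 with h | h | h | h <;> rw [h] <;> decide
  have hc : ZMod.χ₈ (d : ZMod 8) ^ 2 = 1 := by
    rcases h8 with h | h | h | h <;> rw [h] <;> decide
  have h4 : ZMod.χ₄ (d : ZMod 4) = if (4 : ℤ) ∣ d - 1 then 1 else -1 := by
    have h2 : (d : ZMod 4) = ((d % 4 : ℤ) : ZMod 4) := by
      exact_mod_cast (ZMod.intCast_mod d 4).symm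
    rw [h2]
    by_cases h1 : (4 : ℤ) ∣ d - 1
    · have h3 : d % 4 = 1 := by omega
      rw [if_pos h1, h3]
      decide
    · have h3 : d % 4 = 3 := by omega
      rw [if_neg h1, h3]
      decide
  unfold H776.kr H776.c2
  rw [hc, h4]
  simp

/-- the law of `Θ(τ)` -/
theorem law_theta (γ : SL(2, ℤ)) (hC : (4 : ℤ) ∣ γ 1 0) (τ : ℍ) :
    F4 1 one (γ • τ) = H776.kr 2 1 (γ 1 1) * dn' γ τ * F4 1 one τ := by
  have hodd : Odd (γ 1 1) := by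
    have hdet := det_eq γ
    rcases Int.even_or_odd (γ 1 1) with h | h
    · exfalso
      obtain ⟨k, hk⟩ := h
      obtain ⟨c, hc⟩ := hC
      rw [hk, hc] at hdet
      have h5 : (2 : ℤ) * (γ 0 0 * k - γ 0 1 * (2 * c)) = 1 := by linear_combination hdet
      have h6 : (2 : ℤ) ∣ 1 := ⟨_, h5.symm⟩
      omega
    · exact h
  have h1 := H138.LAWE H420.po 1 0 1 4 2 1 one_pos (by norm_num) (by decide) (by norm_num) 0 1 one_pos
    one (per_one 1) (γ 0 0) (γ 0 1) (γ 1 0) (γ 1 1) hodd (det_eq γ) (by simpa using hC) (τ : ℂ) τ.im_pos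
  have h2 := smul_eq' γ τ
  unfold dn' at h2
  rw [← h2] at h1
  rw [F4_apply, F4_apply, Rat.cast_one, one_mul, one_mul, h1, zero_add, pow_one]
  rfl

/-! ### Hermite form -/

theorem hermite (u p w r m : ℤ) (hm : 0 < m) (hdet : u * r - p * w = m) :
    ∃ A B C d α β δ : ℤ, A * d - B * C = 1 ∧ 0 < α ∧ 0 < δ ∧ α * δ = m ∧ u = A * α ∧ w = C * α ∧
      p = A * β + B * δ ∧ r = C * β + d * δ := by
  have hne : (Int.gcd u w : ℤ) ≠ 0 := by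
    intro h
    have h0 : Int.gcd u w = 0 := by exact_mod_cast h
    rw [Int.gcd_eq_zero_iff] at h0
    rw [h0.1, h0.2] at hdet
    simp at hdet
    omega
  have hpos : (0 : ℤ) < Int.gcd u w := lt_of_le_of_ne (by positivity) (Ne.symm hne)
  obtain ⟨A, hA⟩ := Int.gcd_dvd_left (a := u) (b := w)
  obtain ⟨C, hC⟩ := Int.gcd_dvd_right (a := u) (b := w)
  have hbez := Int.gcd_eq_gcd_ab u w
  set g : ℤ := (Int.gcd u w : ℤ) with hg
  set x := Int.gcdA u w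
  set y := Int.gcdB u w
  have h1 : A * x + C * y = 1 := by
    have : g * (A * x + C * y) = g * 1 := by
      linear_combination (-x) * hA + (-y) * hC - hbez
    exact mul_left_cancel₀ hne this
  refine ⟨A, -y, C, x, g, x * p + y * r, -C * p + A * r, by linear_combination h1, hpos, ?_, ?_,
    by linear_combination hA, by linear_combination hC, ?_, ?_⟩
  · have h2 : g * (-C * p + A * r) = m := by linear_combination hdet - r * hA + p * hC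
    by_contra hcon
    push Not at hcon
    nlinarith
  · linear_combination hdet - r * hA + p * hC
  · linear_combination (-p) * h1
  · linear_combination (-r) * h1

end Vale.Agent.P022.H888.Gen
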