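import Vale.Agent.P022.H888.Stab

/-!
P022, row GEN6 (theta version): the stabilizer of the quotients of theta series in `Γ₀(3)`.
-/

open UpperHalfPlane hiding I
open Filter Topology Complex
open scoped MatrixGroups ModularForm Manifold Real

noncomputable section

namespace Vale.Agent.P022.H888.Gen

open Vale.Agent.P022 Vale.Agent.P022.H964

/-- `τ ↦ (α τ + β) / δ` -/
def tr (α β δ : ℤ) (hα : 0 < α) (hδ : 0 < δ) (τ : ℍ) : ℍ :=
  ⟨(α * (τ : ℂ) + β) / δ, by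
    have h1 : ((α : ℂ) * (τ : ℂ) + β) / δ = ((α / δ : ℝ) : ℂ) * τ + ((β / δ : ℝ) : ℂ) := by
      push_cast; ring
    rw [h1, Complex.add_im, Complex.im_ofReal_mul, Complex.ofReal_im, add_zero]
    have h2 : (0 : ℝ) < α := by exact_mod_cast hα
    have h3 : (0 : ℝ) < δ := by exact_mod_cast hδ
    exact mul_pos (div_pos h2 h3) τ.im_pos⟩

theorem tr_coe (α β δ : ℤ) (hα : 0 < α) (hδ : 0 < δ) (τ : ℍ) :
    (tr α β δ hα hδ τ : ℂ) = (α * (τ : ℂ) + β) / δ := rfl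

theorem tr_im (α β δ : ℤ) (hα : 0 < α) (hδ : 0 < δ) (τ : ℍ) :
    (tr α β δ hα hδ τ).im = (α / δ : ℝ) * τ.im := by
  have h1 : ((α : ℂ) * (τ : ℂ) + β) / δ = ((α / δ : ℝ) : ℂ) * τ + ((β / δ : ℝ) : ℂ) := by
    push_cast; ring
  rw [← UpperHalfPlane.coe_im, tr_coe, h1, Complex.add_im, Complex.im_ofReal_mul, Complex.ofReal_im,
    add_zero, UpperHalfPlane.coe_im]

theorem tendsto_tr (α β δ : ℤ) (hα : 0 < α) (hδ : 0 < δ) :
    Tendsto (tr α β δ hα hδ) atImInfty atImInfty := by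
  unfold atImInfty
  rw [tendsto_comap_iff]
  have h1 : UpperHalfPlane.im ∘ tr α β δ hα hδ = fun τ => (α / δ : ℝ) * τ.im := by
    funext τ
    exact tr_im α β δ hα hδ τ
  rw [h1]
  have h2 : (0 : ℝ) < α := by exact_mod_cast hα
  have h3 : (0 : ℝ) < δ := by exact_mod_cast hδ
  exact Tendsto.const_mul_atTop (div_pos h2 h3) tendsto_comap

theorem lim_f3 {ρ : ℚ} (hρ : 0 < ρ) {m : ℕ} (hm : 0 < m) {f : ℤ × ℤ → ℂ} (hf : Per m f) :
    Tendsto (F3 ρ f) atImInfty (𝓝 (f 0)) :=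
  lim0 one_pos (by norm_num) (by norm_num) (fun v hv => Q3_pos hv) hρ hm hf

theorem lim_f4 {ρ : ℚ} (hρ : 0 < ρ) {m : ℕ} (hm : 0 < m) {f : ℤ × ℤ → ℂ} (hf : Per m f) :
    Tendsto (F4 ρ f) atImInfty (𝓝 (f 0)) :=
  lim0 one_pos (by norm_num) (by norm_num) (fun v hv => Q4_pos hv) hρ hm hf

theorem lim_one3 {ρ : ℚ} (hρ : 0 < ρ) : Tendsto (F3 ρ one) atImInfty (𝓝 1) :=
  lim_f3 hρ one_pos (per_one 1)

theorem lim_one4 {ρ : ℚ} (hρ : 0 < ρ) : Tendsto (F4 ρ one) atImInfty (𝓝 1) :=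
  lim_f4 hρ one_pos (per_one 1)

theorem jac_pm {A B C d : ℤ} (hdet : A * d - B * C = 1) (hC : (3 : ℤ) ∣ C) :
    jacobiSym d 3 = 1 ∨ jacobiSym d 3 = -1 := by
  refine jacobiSym.eq_one_or_neg_one ?_
  have h1 : IsCoprime d (3 : ℤ) := by
    obtain ⟨c, hc⟩ := hC
    exact ⟨A, -(B * c), by rw [hc] at hdet; linear_combination hdet⟩
  exact Int.isCoprime_iff_gcd_eq_one.1 h1

theorem chain (u p w r m : ℤ) (hm : 0 < m) (hdet : u * r - p * w = m) (h3 : (3 : ℤ) ∣ w)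
    (hu : ¬ (3 : ℤ) ∣ u) : ∃ (A B α β δ s : ℤ) (hα : 0 < α) (hδ : 0 < δ), α * δ = m ∧
      (s = 1 ∨ s = -1) ∧ α ∣ w ∧ p = A * β + B * δ ∧ ∀ τ : ℍ, (w : ℂ) * τ + r ≠ 0 →
      th 1 1 1 3 0 one ((u * (τ : ℂ) + p) / (w * τ + r)) =
        s * ((w * τ + r) / δ) * F3 1 one (tr α β δ hα hδ τ) := by
  obtain ⟨A, B, C, d, α, β, δ, h1, hα, hδ, h2, h4, h5, h6, h7⟩ := hermite u p w r m hm hdet
  have hC : (3 : ℤ) ∣ C := by
    rw [h5] at h3
    rcases Int.prime_three.dvd_or_dvd h3 with h | h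
    · exact h
    · exact absurd (h4 ▸ Dvd.dvd.mul_left h A) hu
  refine ⟨A, B, α, β, δ, jacobiSym d 3, hα, hδ, h2, jac_pm h1 hC, ⟨C, by rw [h5]; ring⟩, h6, ?_⟩
  intro τ hτ
  have hl := law_one A B C d h1 hC (tr α β δ hα hδ τ : ℂ) (tr α β δ hα hδ τ).im_pos
  have hδ' : (δ : ℂ) ≠ 0 := by exact_mod_cast hδ.ne'
  have e1 : (C : ℂ) * (tr α β δ hα hδ τ : ℂ) + d = (w * τ + r) / δ := by
    rw [tr_coe, h5, h7]
    push_cast
    field_simp
    ring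
  have e2 : (A : ℂ) * (tr α β δ hα hδ τ : ℂ) + B = (u * τ + p) / δ := by
    rw [tr_coe, h4, h6]
    push_cast
    field_simp
    ring
  rw [e1, e2] at hl
  have e3 : ((u : ℂ) * τ + p) / δ / ((w * τ + r) / δ) = (u * (τ : ℂ) + p) / (w * τ + r) := by
    field_simp
  rw [e3] at hl
  rw [hl, F3_apply, Rat.cast_one, one_mul]

theorem not_three (γ : SL(2, ℤ)) (h3 : (3 : ℤ) ∣ γ 1 0) : ¬ (3 : ℤ) ∣ γ 0 0 := by
  rintro ⟨k, hk⟩
  obtain ⟨c, hc⟩ := h3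
  have hdet := det_eq γ
  rw [hk, hc] at hdet
  have h5 : (3 : ℤ) * (k * γ 1 1 - γ 0 1 * c) = 1 := by linear_combination hdet
  have h6 : (3 : ℤ) ∣ 1 := ⟨_, h5.symm⟩
  omega

/-- first step: `m ∣ c` -/
theorem step1 {m : ℕ} (hm : 0 < m) (hm3 : ¬ (3 : ℤ) ∣ m) (γ : SL(2, ℤ)) (h3 : (3 : ℤ) ∣ γ 1 0)
    (H : ∀ᶠ τ : ℍ in atImInfty,
      F3 m one (γ • τ) = jacobiSym (γ 1 1) 3 * dn' γ τ * F3 m one τ) : (m : ℤ) ∣ γ 1 0 := by
  have hu : ¬ (3 : ℤ) ∣ m * γ 0 0 := by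
    intro h
    rcases Int.prime_three.dvd_or_dvd h with h | h
    · exact hm3 h
    · exact not_three γ h3 h
  obtain ⟨A, B, α, β, δ, s, hα, hδ, h1, hs, hw, -, hch⟩ := chain (m * γ 0 0) (m * γ 0 1) (γ 1 0)
    (γ 1 1) m (by exact_mod_cast hm) (by have := det_eq γ; linear_combination (m : ℤ) * this) h3 hu
  have hδ' : (δ : ℂ) ≠ 0 := by exact_mod_cast hδ.ne'
  have hev : ∀ᶠ τ : ℍ in atImInfty, (s : ℂ) / δ * F3 1 one (tr α β δ hα hδ τ) =
      jacobiSym (γ 1 1) 3 * F3 m one τ := by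
    filter_upwards [H] with τ hτ
    have h2 := hch τ (dn_ne γ τ)
    have h4 : (((m * γ 0 0 : ℤ) : ℂ) * (τ : ℂ) + ((m * γ 0 1 : ℤ) : ℂ)) / ((γ 1 0 : ℂ) * τ + γ 1 1)
        = ((m : ℚ) : ℂ) * ((γ • τ : ℍ) : ℂ) := by
      rw [smul_eq']
      unfold dn'
      push_cast
      ring
    rw [h4, ← F3_apply, hτ] at h2
    have h5 := dn_ne γ τ
    have h6 : dn' γ τ * ((s : ℂ) / δ * F3 1 one (tr α β δ hα hδ τ)) =
        dn' γ τ * (jacobiSym (γ 1 1) 3 * F3 m one τ) := by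
      have h7 : dn' γ τ * ((s : ℂ) / δ * F3 1 one (tr α β δ hα hδ τ)) =
          s * (((γ 1 0 : ℂ) * τ + γ 1 1) / δ) * F3 1 one (tr α β δ hα hδ τ) := by
        unfold dn'
        ring
      rw [h7, ← h2]
      ring
    exact mul_left_cancel₀ h5 h6
  have hL : Tendsto (fun τ : ℍ => (s : ℂ) / δ * F3 1 one (tr α β δ hα hδ τ)) atImInfty
      (𝓝 ((s : ℂ) / δ * 1)) :=
    Tendsto.const_mul _ ((lim_one3 one_pos).comp (tendsto_tr α β δ hα hδ))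
  have hR : Tendsto (fun τ : ℍ => (jacobiSym (γ 1 1) 3 : ℂ) * F3 m one τ) atImInfty
      (𝓝 ((jacobiSym (γ 1 1) 3 : ℂ) * 1)) :=
    Tendsto.const_mul _ (lim_one3 (by exact_mod_cast hm))
  have hLR := tendsto_nhds_unique (hL.congr' hev) hR
  rw [mul_one, mul_one, div_eq_iff hδ'] at hLR
  have h8 : s = jacobiSym (γ 1 1) 3 * δ := by exact_mod_cast hLR
  have h9 : δ = 1 := by
    have h10 : δ ∣ 1 := by
      rcases hs with h | h
      · exact ⟨jacobiSym (γ 1 1) 3, by linear_combination h8 - h⟩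
      · exact ⟨-jacobiSym (γ 1 1) 3, by linear_combination h - h8⟩
    exact Int.eq_one_of_dvd_one hδ.le h10
  rw [h9, mul_one] at h1
  rw [← h1]
  exact hw

/-- second step: `m ∣ b` -/
theorem step2 {m : ℕ} (hm : 0 < m) (γ : SL(2, ℤ)) (h3 : (3 : ℤ) ∣ γ 1 0)
    (H : ∀ᶠ τ : ℍ in atImInfty,
      F3 (1 / m) one (γ • τ) = jacobiSym (γ 1 1) 3 * dn' γ τ * F3 (1 / m) one τ) :
    (m : ℤ) ∣ γ 0 1 := by
  obtain ⟨A, B, α, β, δ, s, hα, hδ, h1, hs, -, hp, hch⟩ := chain (γ 0 0) (γ 0 1) (m * γ 1 0)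
    (m * γ 1 1) m (by exact_mod_cast hm) (by have := det_eq γ; linear_combination (m : ℤ) * this)
    (Dvd.dvd.mul_left h3 _) (not_three γ h3)
  have hδ' : (δ : ℂ) ≠ 0 := by exact_mod_cast hδ.ne'
  have hm' : (m : ℂ) ≠ 0 := by exact_mod_cast hm.ne'
  have hαδ : (α : ℂ) * δ = m := by exact_mod_cast h1
  have hε := jac_pm (det_eq γ) h3
  have hev : ∀ᶠ τ : ℍ in atImInfty, (s : ℂ) * α * F3 1 one (tr α β δ hα hδ τ) =
      jacobiSym (γ 1 1) 3 * F3 (1 / m) one τ := by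
    filter_upwards [H] with τ hτ
    have h5 := dn_ne γ τ
    have h5' : ((m * γ 1 0 : ℤ) : ℂ) * (τ : ℂ) + ((m * γ 1 1 : ℤ) : ℂ) = m * dn' γ τ := by
      unfold dn'
      push_cast
      ring
    have h2 := hch τ (by rw [h5']; exact mul_ne_zero hm' h5)
    rw [h5'] at h2
    have h4 : (((γ 0 0 : ℤ) : ℂ) * (τ : ℂ) + ((γ 0 1 : ℤ) : ℂ)) / (m * dn' γ τ)
        = ((1 / m : ℚ) : ℂ) * ((γ • τ : ℍ) : ℂ) := by
      rw [smul_eq']
      push_cast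
      field_simp
    rw [h4, ← F3_apply, hτ] at h2
    have h6 : dn' γ τ * ((s : ℂ) * α * F3 1 one (tr α β δ hα hδ τ)) =
        dn' γ τ * (jacobiSym (γ 1 1) 3 * F3 (1 / m) one τ) := by
      have h7 : dn' γ τ * ((s : ℂ) * α * F3 1 one (tr α β δ hα hδ τ)) =
          s * ((m * dn' γ τ) / δ) * F3 1 one (tr α β δ hα hδ τ) := by
        rw [← hαδ]
        field_simp
      rw [h7, ← h2]
      ring
    exact mul_left_cancel₀ h5 h6
  have hL : Tendsto (fun τ : ℍ => (s : ℂ) * α * F3 1 one (tr α β δ hα hδ τ)) atImInfty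
      (𝓝 ((s : ℂ) * α * 1)) :=
    Tendsto.const_mul _ ((lim_one3 one_pos).comp (tendsto_tr α β δ hα hδ))
  have hR : Tendsto (fun τ : ℍ => (jacobiSym (γ 1 1) 3 : ℂ) * F3 (1 / m) one τ) atImInfty
      (𝓝 ((jacobiSym (γ 1 1) 3 : ℂ) * 1)) :=
    Tendsto.const_mul _ (lim_one3 (by positivity))
  have hLR := tendsto_nhds_unique (hL.congr' hev) hR
  rw [mul_one, mul_one] at hLR
  have h8 : s * α = jacobiSym (γ 1 1) 3 := by exact_mod_cast hLR
  have h9 : α = 1 := by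
    rcases hs with h | h <;> rcases hε with h' | h' <;> rw [h, h'] at h8 <;> omega
  subst h9
  have h10 : s = jacobiSym (γ 1 1) 3 := by rw [← h8, mul_one]
  have h11 : δ = m := by rw [← h1, one_mul]
  have hs0 : (s : ℂ) ≠ 0 := by
    rcases hs with h | h <;> rw [h] <;> simp
  have hev2 : ∀ᶠ τ : ℍ in atImInfty, F3 1 one (tr 1 β δ hα hδ τ) = F3 (1 / m) one τ := by
    filter_upwards [hev] with τ hτ
    rw [← h10, Int.cast_one, mul_one] at hτ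
    exact mul_left_cancel₀ hs0 hτ
  have h12 := (lim1 (ρ := 1) one_pos one_pos (per_one 1)).comp (tendsto_tr 1 β δ hα hδ)
  have h13 := lim1 (ρ := 1 / m) (by positivity) one_pos (per_one 1)
  have h14 : Tendsto (fun τ : ℍ => cexp (-(2 * π * I * β / m)) *
      ((Th 1 1 1 3 0 (1 / m) one τ - one 0) * cexp (-(2 * π * I * ((1 / m : ℚ) : ℂ) * τ)))) atImInfty
      (𝓝 (cexp (-(2 * π * I * β / m)) * ∑ u ∈ U6, one u)) := Tendsto.const_mul _ h13
  have h15 := tendsto_nhds_unique (h12.congr' (by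
    filter_upwards [hev2] with τ hτ
    show (Th 1 1 1 3 0 1 one (tr 1 β δ hα hδ τ) - one 0) *
      cexp (-(2 * π * I * ((1 : ℚ) : ℂ) * (tr 1 β δ hα hδ τ : ℂ))) =
        cexp (-(2 * π * I * β / m)) *
      ((Th 1 1 1 3 0 (1 / m) one τ - one 0) * cexp (-(2 * π * I * ((1 / m : ℚ) : ℂ) * τ)))
    have e0 : Th 1 1 1 3 0 1 one (tr 1 β δ hα hδ τ) = Th 1 1 1 3 0 (1 / m) one τ := hτ
    have e1 : cexp (-(2 * π * I * ((1 : ℚ) : ℂ) * (tr 1 β δ hα hδ τ : ℂ))) =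
        cexp (-(2 * π * I * β / m)) * cexp (-(2 * π * I * ((1 / m : ℚ) : ℂ) * τ)) := by
      rw [← Complex.exp_add, tr_coe, h11]
      congr 1
      push_cast
      field_simp
      ring
    rw [e0, e1]
    ring)) h14
  have h16 : (∑ u ∈ U6, one u) = 6 := by
    unfold one
    rw [Finset.sum_const, nsmul_eq_mul, mul_one]
    have : U6.card = 6 := by decide
    rw [this]
    norm_num
  rw [h16] at h15
  have h17 : cexp (-(2 * π * I * β / m)) = 1 := by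
    have h6 : (6 : ℂ) ≠ 0 := by norm_num
    have := mul_right_cancel₀ h6 (show cexp (-(2 * π * I * β / m)) * 6 = 1 * 6 by
      rw [one_mul]; exact h15.symm)
    exact this
  rw [Complex.exp_eq_one_iff] at h17
  obtain ⟨n, hn⟩ := h17
  have h18 : (β : ℂ) = -n * m := by
    have hpi : (2 * π * I : ℂ) ≠ 0 := Complex.two_pi_I_ne_zero
    have h19 : (2 * π * I : ℂ) * β = (2 * π * I) * (-n * m) := by
      field_simp at hn
      linear_combination (-(2 * π * I : ℂ)) * hn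
    exact mul_left_cancel₀ hpi h19
  have h20 : β = -n * m := by exact_mod_cast h18
  rw [hp, h20, h11]
  exact ⟨A * (-n) + B, by ring⟩

end Vale.Agent.P022.H888.Gen
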