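import Vale.Agent.P022.H888.Stab2

/-!
P022, row GEN6 (theta version): last two steps and the stabilizer.
-/

open UpperHalfPlane hiding I
open Filter Topology Complex
open scoped MatrixGroups ModularForm Manifold Real

noncomputable section

namespace Vale.Agent.P022.H888.Gen

open Vale.Agent.P022 Vale.Agent.P022.H964

open scoped Classical in
/-- the indicator function of `±(1,0)` modulo `m` -/
def ind (m : ℕ) : ℤ × ℤ → ℤ := fun v =>
  if (m : ℤ) ∣ v.2 ∧ ((m : ℤ) ∣ v.1 - 1 ∨ (m : ℤ) ∣ v.1 + 1) then 1 else 0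

/-- complex valued -/
abbrev cx (f : ℤ × ℤ → ℤ) : ℤ × ℤ → ℂ := fun v => (f v : ℂ)

/-- periodic, integer valued -/
def PerZ (m : ℕ) (f : ℤ × ℤ → ℤ) : Prop := ∀ v w : ℤ × ℤ, f (v + (m : ℤ) • w) = f v

theorem PerZ.cx {m : ℕ} {f : ℤ × ℤ → ℤ} (h : PerZ m f) : Per m (cx f) := fun v w => by
  simp only [Gen.cx, h v w]

theorem perZ_ind (m : ℕ) : PerZ m (ind m) := by
  intro v w
  have h2 : ((m : ℤ) ∣ (v + (m : ℤ) • w).2) ↔ ((m : ℤ) ∣ v.2) := by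
    simp only [Prod.snd_add, Prod.smul_snd, smul_eq_mul]
    exact (dvd_add_left (Dvd.intro _ rfl))
  have h3 : ∀ e : ℤ, ((m : ℤ) ∣ (v + (m : ℤ) • w).1 + e) ↔ ((m : ℤ) ∣ v.1 + e) := by
    intro e
    simp only [Prod.fst_add, Prod.smul_fst, smul_eq_mul]
    rw [show v.1 + (m : ℤ) * w.1 + e = v.1 + e + m * w.1 by ring]
    exact (dvd_add_left (Dvd.intro _ rfl))
  have h4 := h3 (-1)
  have h5 := h3 1
  simp only [← sub_eq_add_neg] at h4
  unfold ind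
  simp only [h2, h4, h5]

theorem per_smul {m : ℕ} {f : ℤ × ℤ → ℂ} (hf : Per m f) (d : ℤ) : Per m (fun v => f (d • v)) := by
  intro v w
  show f (d • (v + (m : ℤ) • w)) = f (d • v)
  rw [smul_add, smul_comm]
  exact hf _ _

theorem perZ_smul {m : ℕ} {f : ℤ × ℤ → ℤ} (hf : PerZ m f) (d : ℤ) :
    PerZ m (fun v => f (d • v)) := by
  intro v w
  show f (d • (v + (m : ℤ) • w)) = f (d • v)
  rw [smul_add, smul_comm]
  exact hf _ _

/-- third step: `d = ±1 mod m` -/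
theorem step3 {m : ℕ} (hm : 3 ≤ m) (γ : SL(2, ℤ)) (hB : (m : ℤ) ∣ γ 0 1)
    (hC : (3 * m : ℤ) ∣ γ 1 0)
    (H : ∀ᶠ τ : ℍ in atImInfty, F3 (1 / m) (cx (ind m)) (γ • τ) =
      jacobiSym (γ 1 1) 3 * dn' γ τ * F3 (1 / m) (cx (ind m)) τ) :
    (m : ℤ) ∣ γ 1 1 - 1 ∨ (m : ℤ) ∣ γ 1 1 + 1 := by
  have hm0 : 0 < m := by omega
  have hper : Per m (cx (ind m)) := (perZ_ind m).cx
  have hper' := per_smul hper (γ 1 1)
  have h3 : (3 : ℤ) ∣ γ 1 0 := (Dvd.intro _ rfl).trans hC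
  have hε := jac_pm (det_eq γ) h3
  have hε0 : (jacobiSym (γ 1 1) 3 : ℂ) ≠ 0 := by
    rcases hε with h | h <;> rw [h] <;> simp
  have hev : ∀ᶠ τ : ℍ in atImInfty, F3 (1 / m) (fun v => cx (ind m) (γ 1 1 • v)) τ =
      F3 (1 / m) (cx (ind m)) τ := by
    filter_upwards [H] with τ hτ
    rw [law_f hm0 hper γ hB hC τ] at hτ
    exact mul_left_cancel₀ (mul_ne_zero hε0 (dn_ne γ τ)) hτ
  have hnot1 : ¬ (m : ℤ) ∣ 1 := by
    intro h
    have := Int.le_of_dvd one_pos h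
    omega
  have hnotm1 : ¬ (m : ℤ) ∣ -1 := by
    rw [dvd_neg]; exact hnot1
  have hi00 : ind m (0, 0) = 0 := by
    unfold ind
    rw [if_neg]
    rintro ⟨-, h | h⟩
    · simp at h; exact hnot1 (by simpa using h)
    · simp at h; exact hnot1 (by simpa using h)
  have hz1 : cx (ind m) (0 : ℤ × ℤ) = 0 := by
    show ((ind m (0, 0) : ℤ) : ℂ) = 0
    rw [hi00]; simp
  have hz2 : (fun v => cx (ind m) (γ 1 1 • v)) (0 : ℤ × ℤ) = 0 := by
    show cx (ind m) (γ 1 1 • (0 : ℤ × ℤ)) = 0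
    rw [smul_zero]
    exact hz1
  have hA := lim1 (ρ := 1 / m) (by positivity) hm0 hper
  have hB' := lim1 (ρ := 1 / m) (by positivity) hm0 hper'
  have hsum := tendsto_nhds_unique (hB'.congr' (by
    filter_upwards [hev] with τ hτ
    have e0 : Th 1 1 1 3 0 (1 / m) (fun v => cx (ind m) (γ 1 1 • v)) τ =
      Th 1 1 1 3 0 (1 / m) (cx (ind m)) τ := hτ
    rw [e0, hz1]
    have : cx (ind m) (γ 1 1 • (0 : ℤ × ℤ)) = 0 := hz2
    rw [this])) hA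
  -- d is prime to m
  have hdm : ¬ (m : ℤ) ∣ γ 1 1 := by
    rintro ⟨k, hk⟩
    obtain ⟨c, hc⟩ := hC
    have hdet := det_eq γ
    rw [hk, hc] at hdet
    exact hnot1 ⟨γ 0 0 * k - γ 0 1 * (3 * c), by linear_combination -hdet⟩
  have hdm' : ¬ (m : ℤ) ∣ -γ 1 1 := by rw [dvd_neg]; exact hdm
  by_contra hcon
  push Not at hcon
  have hc1 : ¬ (m : ℤ) ∣ -γ 1 1 - 1 := by
    intro h
    apply hcon.2
    have : γ 1 1 + 1 = -(-γ 1 1 - 1) := by ring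
    rw [this, dvd_neg]; exact h
  have hc2 : ¬ (m : ℤ) ∣ -γ 1 1 + 1 := by
    intro h
    apply hcon.1
    have : γ 1 1 - 1 = -(-γ 1 1 + 1) := by ring
    rw [this, dvd_neg]; exact h
  have hU : ∀ g : ℤ × ℤ → ℂ, ∑ u ∈ U6, g u =
      g (1, 0) + (g (-1, 0) + (g (0, 1) + (g (0, -1) + (g (1, -1) + g (-1, 1))))) := by
    intro g
    unfold U6
    rw [Finset.sum_insert (by decide), Finset.sum_insert (by decide), Finset.sum_insert (by decide),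
      Finset.sum_insert (by decide), Finset.sum_insert (by decide), Finset.sum_singleton]
  rw [hU, hU] at hsum
  simp only [Prod.smul_mk, smul_eq_mul, mul_one, mul_zero, mul_neg, Gen.cx, ind, dvd_zero, true_and,
    sub_self, hcon.1, hcon.2, hc1, hc2, or_self, if_false, hdm, hdm', hnot1, hnotm1, false_and,
    true_or, if_true, Int.cast_zero, Int.cast_one, add_zero, zero_add, neg_add_cancel, or_true]
    at hsum
  norm_num at hsum

/-- fourth step: the sign -/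
theorem step4 (γ : SL(2, ℤ)) (h4 : (4 : ℤ) ∣ γ 1 0)
    (H : ∀ᶠ τ : ℍ in atImInfty, F4 1 one (γ • τ) = jacobiSym (γ 1 1) 3 * dn' γ τ * F4 1 one τ) :
    H776.kr 2 1 (γ 1 1) = jacobiSym (γ 1 1) 3 := by
  have hev : ∀ᶠ τ : ℍ in atImInfty, (H776.kr 2 1 (γ 1 1) : ℂ) * F4 1 one τ =
      jacobiSym (γ 1 1) 3 * F4 1 one τ := by
    filter_upwards [H] with τ hτ
    rw [law_theta γ h4 τ] at hτ
    exact mul_left_cancel₀ (dn_ne γ τ) (by linear_combination hτ)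
  have hL := (lim_one4 one_pos).const_mul (H776.kr 2 1 (γ 1 1) : ℂ)
  have hR := (lim_one4 one_pos).const_mul (jacobiSym (γ 1 1) 3 : ℂ)
  have := tendsto_nhds_unique (hL.congr' hev) hR
  rw [mul_one, mul_one] at this
  exact_mod_cast this

theorem jac3 (d : ℤ) : (jacobiSym d 3 = 1 ↔ (3 : ℤ) ∣ d - 1) ∧
    (jacobiSym d 3 = -1 ↔ (3 : ℤ) ∣ d + 1) := by
  rw [jacobiSym.mod_left]
  have h1 : d % (3 : ℕ) = 0 ∨ d % (3 : ℕ) = 1 ∨ d % (3 : ℕ) = 2 := by omega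
  have e0 : jacobiSym 0 3 = 0 := by norm_num
  have e1 : jacobiSym 1 3 = 1 := by norm_num
  have e2 : jacobiSym 2 3 = -1 := by norm_num
  rcases h1 with h | h | h <;> rw [h]
  · rw [e0]; constructor <;> constructor <;> intro h' <;> omega
  · rw [e1]; constructor <;> constructor <;> intro h' <;> omega
  · rw [e2]; constructor <;> constructor <;> intro h' <;> omega

/-- the group `±(Γ(m) ∩ Γ₁(3))`, `m` prime to `3` -/
def InG (m : ℕ) (γ : SL(2, ℤ)) : Prop :=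
  (3 * m : ℤ) ∣ γ 1 0 ∧ (m : ℤ) ∣ γ 0 1 ∧ ((3 * m : ℤ) ∣ γ 1 1 - 1 ∨ (3 * m : ℤ) ∣ γ 1 1 + 1)

/-- the numerators: forms of weight one -/
def RF (m : ℕ) : Set (ℍ → ℂ) :=
  {F | ∃ f : ℤ × ℤ → ℤ, PerZ m f ∧ F = F3 (1 / m) (cx f)} ∪ {F3 1 one, F3 m one, F4 1 one}

theorem three_m {m : ℕ} (hm3 : ¬ (3 : ℤ) ∣ m) {x : ℤ} (h3 : (3 : ℤ) ∣ x) (h : (m : ℤ) ∣ x) :
    (3 * m : ℤ) ∣ x := by
  refine IsCoprime.mul_dvd ?_ h3 h
  exact (Int.prime_three.coprime_iff_not_dvd).2 hm3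

/-- **the stabilizer of the quotients is the group** -/
theorem stab {m : ℕ} (hm4 : (4 : ℤ) ∣ m) (hm0 : 0 < m) (hm3 : ¬ (3 : ℤ) ∣ m) (γ : SL(2, ℤ))
    (h3 : (3 : ℤ) ∣ γ 1 0)
    (H : ∀ F ∈ RF m, ∀ τ, F (γ • τ) * F3 (1 / m) one τ = F τ * F3 (1 / m) one (γ • τ)) :
    InG m γ := by
  have hm3' : 3 ≤ m := by
    have := Int.le_of_dvd (by exact_mod_cast hm0) hm4
    omega
  have hE : ∀ᶠ τ : ℍ in atImInfty, F3 (1 / m) one τ ≠ 0 :=
    (lim_one3 (ρ := 1 / m) (by positivity)).eventually_ne one_ne_zero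
  have hA : ∀ᶠ τ : ℍ in atImInfty, F3 1 one τ ≠ 0 :=
    (lim_one3 (ρ := 1) one_pos).eventually_ne one_ne_zero
  have hEγ : ∀ᶠ τ : ℍ in atImInfty,
      F3 (1 / m) one (γ • τ) = jacobiSym (γ 1 1) 3 * dn' γ τ * F3 (1 / m) one τ := by
    filter_upwards [hA] with τ hτ
    have h1 := H (F3 1 one) (by right; simp) τ
    rw [law_a γ h3 τ] at h1
    exact mul_left_cancel₀ hτ (by rw [← h1]; ring)
  have hF : ∀ F ∈ RF m, ∀ᶠ τ : ℍ in atImInfty,
      F (γ • τ) = jacobiSym (γ 1 1) 3 * dn' γ τ * F τ := by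
    intro F hF
    filter_upwards [hE, hEγ] with τ h1 h2
    have h5 := H F hF τ
    rw [h2] at h5
    exact mul_right_cancel₀ h1 (by rw [h5]; ring)
  have hC : (m : ℤ) ∣ γ 1 0 := step1 hm0 hm3 γ h3 (hF (F3 m one) (by right; simp))
  have hB : (m : ℤ) ∣ γ 0 1 := step2 hm0 γ h3 hEγ
  have hC3 : (3 * m : ℤ) ∣ γ 1 0 := three_m hm3 h3 hC
  have hd := step3 hm3' γ hB hC3 (hF _ (by left; exact ⟨ind m, perZ_ind m, rfl⟩))
  have hs := step4 γ (hm4.trans hC) (hF _ (by right; simp))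
  refine ⟨hC3, hB, ?_⟩
  rcases hd with hd | hd
  · left
    have h6 := hm4.trans hd
    rw [kr_eq _ (Or.inl h6), if_pos h6] at hs
    exact three_m hm3 ((jac3 _).1.1 hs.symm) hd
  · right
    have h6 := hm4.trans hd
    have h7 : ¬ (4 : ℤ) ∣ γ 1 1 - 1 := by omega
    rw [kr_eq _ (Or.inr h6), if_neg h7] at hs
    exact three_m hm3 ((jac3 _).2.1 hs.symm) hd

end Vale.Agent.P022.H888.Gen
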